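import Vale.Agent.P370.H600.MottDefs

/-! **Block SEL: one-body selection in first-quantised tensor form.**

`n` electrons on the orbitals `Fin m`; a strong one-body penalty confines them to the span of the
selected orbitals `e : Fin k → Fin m`.  Two-sided bound for the bottom of the form. -/

namespace Vale.Agent.P370.H765

open Finset Function Vale.Agent.P370.H600

noncomputable section

variable {n m k : ℕ}

/-! ### Algebra of the inner product -/

theorem ip_add_left (ψ ψ' φ : MSt n m) : ip (ψ + ψ') φ = ip ψ φ + ip ψ' φ := by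
  simp only [ip, Pi.add_apply, add_mul, sum_add_distrib]

theorem ip_add_right (ψ φ φ' : MSt n m) : ip ψ (φ + φ') = ip ψ φ + ip ψ φ' := by
  simp only [ip, Pi.add_apply, mul_add, sum_add_distrib]

theorem ip_comm (ψ φ : MSt n m) : ip ψ φ = ip φ ψ := by
  simp only [ip, mul_comm]

theorem nsq_nonneg (ψ : MSt n m) : 0 ≤ nsq ψ :=
  sum_nonneg fun _ _ => sum_nonneg fun _ _ => mul_self_nonneg _

theorem T1_add (t : Fin m → Fin m → ℝ) (ψ φ : MSt n m) : T1 t (ψ + φ) = T1 t ψ + T1 t φ := by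
  funext a s
  simp only [T1, Pi.add_apply, mul_add, sum_add_distrib]

theorem T2_add (g : Fin m → Fin m → Fin m → Fin m → ℝ) (ψ φ : MSt n m) :
    T2 g (ψ + φ) = T2 g ψ + T2 g φ := by
  funext a s
  simp only [T2, Pi.add_apply, mul_add, sum_add_distrib]

theorem T1_add_mat (t t' : Fin m → Fin m → ℝ) (ψ : MSt n m) :
    T1 (t + t') ψ = T1 t ψ + T1 t' ψ := by
  funext a s
  simp only [T1, Pi.add_apply, add_mul, sum_add_distrib]

theorem hform_add_mat (t t' : Fin m → Fin m → ℝ) (g : Fin m → Fin m → Fin m → Fin m → ℝ)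
    (ψ : MSt n m) : hform (t + t') g ψ = ip ψ (T1 t ψ) + hform t' g ψ := by
  rw [hform, hform, T1_add_mat, ip_add_right]
  ring

/-- The bilinear form of `T1 t + T2 g`. -/
def bform (t : Fin m → Fin m → ℝ) (g : Fin m → Fin m → Fin m → Fin m → ℝ) (ψ φ : MSt n m) : ℝ :=
  ip ψ (T1 t φ) + ip ψ (T2 g φ)

theorem bform_self (t : Fin m → Fin m → ℝ) (g : Fin m → Fin m → Fin m → Fin m → ℝ)
    (ψ : MSt n m) : bform t g ψ ψ = hform t g ψ := rfl

theorem bform_add_left (t : Fin m → Fin m → ℝ) (g : Fin m → Fin m → Fin m → Fin m → ℝ)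
    (ψ ψ' φ : MSt n m) : bform t g (ψ + ψ') φ = bform t g ψ φ + bform t g ψ' φ := by
  simp only [bform, ip_add_left]
  ring

theorem bform_add_right (t : Fin m → Fin m → ℝ) (g : Fin m → Fin m → Fin m → Fin m → ℝ)
    (ψ φ φ' : MSt n m) : bform t g ψ (φ + φ') = bform t g ψ φ + bform t g ψ φ' := by
  simp only [bform, T1_add, T2_add, ip_add_right]
  ring

/-! ### Restriction and zero-extension -/

/-- Restriction of a tensor to the selected orbitals. -/
def res (e : Fin k → Fin m) (ψ : MSt n m) : MSt n k := fun a s => ψ (e ∘ a) s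

/-- Zero-extension of a tensor on the selected orbitals. -/
def ext (e : Fin k → Fin m) (φ : MSt n k) : MSt n m := fun a s =>
  ∑ a' : Fin n → Fin k, if e ∘ a' = a then φ a' s else 0

theorem ip_ext (e : Fin k → Fin m) (φ : MSt n k) (ψ : MSt n m) :
    ip (ext e φ) ψ = ip φ (res e ψ) := by
  simp only [ip, ext, res, sum_mul]
  rw [show (∑ a : Fin n → Fin m, ∑ s : Fin n → Bool, ∑ a' : Fin n → Fin k,
      (if e ∘ a' = a then φ a' s else 0) * ψ a s) =
      ∑ a' : Fin n → Fin k, ∑ a : Fin n → Fin m, ∑ s : Fin n → Bool,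
        (if e ∘ a' = a then φ a' s else 0) * ψ a s from by
    rw [sum_comm]
    rw [show (∑ s : Fin n → Bool, ∑ a : Fin n → Fin m, ∑ a' : Fin n → Fin k,
        (if e ∘ a' = a then φ a' s else 0) * ψ a s) =
        ∑ s : Fin n → Bool, ∑ a' : Fin n → Fin k, ∑ a : Fin n → Fin m,
          (if e ∘ a' = a then φ a' s else 0) * ψ a s from
      sum_congr rfl fun s _ => sum_comm]
    rw [sum_comm]
    exact sum_congr rfl fun a' _ => sum_comm]
  refine sum_congr rfl fun a' _ => ?_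
  rw [sum_eq_single (e ∘ a')]
  · simp
  · intro a _ ha
    refine sum_eq_zero fun s _ => ?_
    rw [if_neg (Ne.symm ha), zero_mul]
  · simp

theorem ext_comp {e : Fin k → Fin m} (he : Injective e) (φ : MSt n k) (a : Fin n → Fin k)
    (s : Fin n → Bool) : ext e φ (e ∘ a) s = φ a s := by
  rw [ext, sum_eq_single a]
  · simp
  · intro b _ hb
    rw [if_neg]
    intro h
    exact hb (he.comp_left h)
  · simp

theorem res_ext {e : Fin k → Fin m} (he : Injective e) (φ : MSt n k) : res e (ext e φ) = φ := by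
  funext a s
  exact ext_comp he φ a s

theorem ext_eq_zero {e : Fin k → Fin m} (φ : MSt n k) {a : Fin n → Fin m} {i : Fin n}
    (h : a i ∉ Set.range e) (s : Fin n → Bool) : ext e φ a s = 0 := by
  rw [ext]
  refine sum_eq_zero fun a' _ => ?_
  rw [if_neg]
  rintro rfl
  exact h ⟨a' i, rfl⟩

theorem update_comp' (e : Fin k → Fin m) (a : Fin n → Fin k) (i : Fin n) (c : Fin k) :
    update (e ∘ a) i (e c) = e ∘ update a i c := by
  funext j
  by_cases h : j = i
  · subst h; simp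
  · simp [update_of_ne h]

theorem sum_range_eq {e : Fin k → Fin m} (he : Injective e) (f : Fin m → ℝ)
    (hf : ∀ b, b ∉ Set.range e → f b = 0) : ∑ b, f b = ∑ c, f (e c) := by
  rw [← sum_image (s := univ) (g := e) (f := f) (fun x _ y _ h => he h)]
  symm
  apply sum_subset (subset_univ _)
  intro b _ hb
  apply hf
  rintro ⟨c, rfl⟩
  exact hb (mem_image_of_mem _ (mem_univ _))

theorem res_T1_ext {e : Fin k → Fin m} (he : Injective e) (t : Fin m → Fin m → ℝ)
    (φ : MSt n k) : res e (T1 t (ext e φ)) = T1 (fun a b => t (e a) (e b)) φ := by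
  funext a s
  simp only [res, T1, comp_apply]
  refine sum_congr rfl fun i _ => ?_
  rw [sum_range_eq he]
  · refine sum_congr rfl fun c _ => ?_
    rw [update_comp', ext_comp he]
  · intro b hb
    rw [ext_eq_zero φ (i := i) (by simpa using hb), mul_zero]

theorem res_T2_ext {e : Fin k → Fin m} (he : Injective e)
    (g : Fin m → Fin m → Fin m → Fin m → ℝ) (φ : MSt n k) :
    res e (T2 g (ext e φ)) = T2 (fun a b c d => g (e a) (e b) (e c) (e d)) φ := by
  funext a s
  simp only [res, T2, comp_apply]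
  congr 1
  refine sum_congr rfl fun i _ => sum_congr rfl fun j hj => ?_
  have hji : j ≠ i := (mem_erase.1 hj).1
  rw [sum_range_eq he]
  · refine sum_congr rfl fun c _ => ?_
    rw [sum_range_eq he]
    · refine sum_congr rfl fun d _ => ?_
      rw [update_comp', update_comp', ext_comp he]
    · intro b hb
      rw [ext_eq_zero φ (i := j) (by simpa using hb), mul_zero]
  · intro b hb
    refine sum_eq_zero fun d _ => ?_
    rw [ext_eq_zero φ (i := i) (by simpa [update_of_ne hji.symm] using hb), mul_zero]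

/-- The energy of a zero-extended tensor is the energy with the restricted integrals. -/
theorem hform_ext {e : Fin k → Fin m} (he : Injective e) (t : Fin m → Fin m → ℝ)
    (g : Fin m → Fin m → Fin m → Fin m → ℝ) (φ : MSt n k) :
    hform t g (ext e φ) =
      hform (fun a b => t (e a) (e b)) (fun a b c d => g (e a) (e b) (e c) (e d)) φ := by
  rw [hform, hform, ip_ext, ip_ext, res_T1_ext he, res_T2_ext he]

theorem nsq_ext {e : Fin k → Fin m} (he : Injective e) (φ : MSt n k) :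
    nsq (ext e φ) = nsq φ := by
  rw [nsq, nsq, ip_ext, res_ext he]

theorem anti_res {e : Fin k → Fin m} {ψ : MSt n m} (h : Anti ψ) : Anti (res e ψ) :=
  fun σ a s => h σ (e ∘ a) s

theorem anti_ext {e : Fin k → Fin m} {φ : MSt n k} (h : Anti φ) : Anti (ext e φ) := by
  intro σ a s
  rw [ext, ext, mul_sum]
  rw [← Equiv.sum_comp (Equiv.arrowCongr σ.symm (Equiv.refl (Fin k)))]
  refine sum_congr rfl fun a' _ => ?_
  have h1 : (Equiv.arrowCongr σ.symm (Equiv.refl (Fin k))) a' = a' ∘ σ := by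
    funext j; simp [Equiv.arrowCongr]
  rw [h1, h σ a' s]
  by_cases hh : e ∘ a' = a
  · subst hh
    simp [comp_assoc]
  · rw [if_neg hh, if_neg, mul_zero]
    intro h2
    apply hh
    funext j
    have := congrFun h2 (σ.symm j)
    simpa using this

/-! ### The penalty -/

/-- The one-body penalty in the coordinate of one electron. -/
theorem penalty_coord (t0 : Fin m → Fin m → ℝ) (G : ℝ) (S : Finset (Fin m))
    (h0 : ∀ v : Fin m → ℝ, G * ∑ b ∈ S, v b ^ 2 ≤ ∑ a, ∑ b, t0 a b * v a * v b)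
    (ψ : MSt n m) (i : Fin n) (s : Fin n → Bool) :
    G * ∑ a : Fin n → Fin m, (if a i ∈ S then ψ a s ^ 2 else 0) ≤
      ∑ a : Fin n → Fin m, ∑ b, t0 (a i) b * (ψ a s * ψ (update a i b) s) := by
  have e1 : ∀ F : (Fin n → Fin m) → ℝ, ∑ a, F a =
      ∑ r : {j // j ≠ i} → Fin m, ∑ c : Fin m, F ((Equiv.funSplitAt i (Fin m)).symm (c, r)) := by
    intro F
    rw [← Equiv.sum_comp (Equiv.funSplitAt i (Fin m)).symm, Fintype.sum_prod_type, sum_comm]
  have e2 : ∀ (c : Fin m) (r : {j // j ≠ i} → Fin m),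
      (Equiv.funSplitAt i (Fin m)).symm (c, r) i = c := by
    intro c r
    simp [Equiv.funSplitAt, Equiv.piSplitAt]
  have e3 : ∀ (c b : Fin m) (r : {j // j ≠ i} → Fin m),
      update ((Equiv.funSplitAt i (Fin m)).symm (c, r)) i b =
        (Equiv.funSplitAt i (Fin m)).symm (b, r) := by
    intro c b r
    funext j
    by_cases h : j = i
    · subst h; simp [Equiv.funSplitAt, Equiv.piSplitAt]
    · simp [Equiv.funSplitAt, Equiv.piSplitAt, h]
  rw [e1, e1, mul_sum]
  refine sum_le_sum fun r _ => ?_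
  simp only [e2, e3]
  have := h0 (fun b => ψ ((Equiv.funSplitAt i (Fin m)).symm (b, r)) s)
  rw [← sum_filter] 
  have hf : (univ.filter fun c => c ∈ S) = S := by ext; simp
  rw [hf]
  refine this.trans (le_of_eq ?_)
  refine sum_congr rfl fun a _ => sum_congr rfl fun b _ => by ring

/-- The part of a tensor with at least one electron outside the selected orbitals. -/
def outer (e : Fin k → Fin m) (ψ : MSt n m) : MSt n m := ψ - ext e (res e ψ)

theorem ext_res {e : Fin k → Fin m} (he : Injective e) (ψ : MSt n m) (a : Fin n → Fin m)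
    (s : Fin n → Bool) :
    ext e (res e ψ) a s = if ∀ i, a i ∈ Set.range e then ψ a s else 0 := by
  classical
  split_ifs with h
  · choose a' ha' using h
    have : a = e ∘ a' := by funext i; exact (ha' i).symm
    subst this
    rw [ext_comp he]; rfl
  · push Not at h
    obtain ⟨i, hi⟩ := h
    exact ext_eq_zero _ hi s

theorem outer_apply {e : Fin k → Fin m} (he : Injective e) (ψ : MSt n m) (a : Fin n → Fin m)
    (s : Fin n → Bool) : outer e ψ a s = if ∀ i, a i ∈ Set.range e then 0 else ψ a s := by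
  classical
  simp only [outer, Pi.sub_apply, ext_res he]
  split_ifs <;> ring

theorem nsq_split {e : Fin k → Fin m} (he : Injective e) (ψ : MSt n m) :
    nsq ψ = nsq (res e ψ) + nsq (outer e ψ) := by
  classical
  rw [← nsq_ext he (res e ψ)]
  simp only [nsq, ip]
  rw [← sum_add_distrib]
  refine sum_congr rfl fun a _ => ?_
  rw [← sum_add_distrib]
  refine sum_congr rfl fun s _ => ?_
  rw [ext_res he, outer_apply he]
  split_ifs <;> ring

theorem penalty {e : Fin k → Fin m} (he : Injective e) (t0 : Fin m → Fin m → ℝ) {G : ℝ}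
    (hG : 0 ≤ G)
    (h0 : ∀ v : Fin m → ℝ, G * ∑ b ∈ univ.filter (fun b => b ∉ Set.range e), v b ^ 2 ≤
      ∑ a, ∑ b, t0 a b * v a * v b)
    (ψ : MSt n m) : G * nsq (outer e ψ) ≤ ip ψ (T1 t0 ψ) := by
  classical
  have h1 : ip ψ (T1 t0 ψ) = ∑ s : Fin n → Bool, ∑ i : Fin n, ∑ a : Fin n → Fin m, ∑ b,
      t0 (a i) b * (ψ a s * ψ (update a i b) s) := by
    simp only [ip, T1]
    rw [sum_comm]
    refine sum_congr rfl fun s _ => ?_
    rw [sum_comm]
    refine sum_congr rfl fun a _ => ?_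
    rw [mul_sum]
    refine sum_congr rfl fun i _ => ?_
    rw [mul_sum]
    refine sum_congr rfl fun b _ => by ring
  rw [h1]
  calc G * nsq (outer e ψ)
      = G * ∑ s : Fin n → Bool, ∑ a : Fin n → Fin m, outer e ψ a s ^ 2 := by
        congr 1
        rw [nsq, ip, sum_comm]
        exact sum_congr rfl fun s _ => sum_congr rfl fun a _ => by ring
    _ ≤ G * ∑ s : Fin n → Bool, ∑ a : Fin n → Fin m, ∑ i : Fin n,
          (if a i ∈ univ.filter (fun b => b ∉ Set.range e) then ψ a s ^ 2 else 0) := by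
        refine mul_le_mul_of_nonneg_left ?_ hG
        refine sum_le_sum fun s _ => sum_le_sum fun a _ => ?_
        rw [outer_apply he]
        split_ifs with h
        · rw [zero_pow (by norm_num)]
          refine sum_nonneg fun i _ => ?_
          split_ifs
          · exact sq_nonneg _
          · exact le_refl _
        · push Not at h
          obtain ⟨i, hi⟩ := h
          have := single_le_sum (f := fun i : Fin n =>
            if a i ∈ univ.filter (fun b => b ∉ Set.range e) then ψ a s ^ 2 else 0)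
            (fun i _ => by
              split_ifs
              · exact sq_nonneg _
              · exact le_refl _) (mem_univ i)
          refine le_trans (le_of_eq ?_) this
          rw [if_pos]
          simpa using hi
    _ = ∑ s : Fin n → Bool, ∑ i : Fin n, G * ∑ a : Fin n → Fin m,
          (if a i ∈ univ.filter (fun b => b ∉ Set.range e) then ψ a s ^ 2 else 0) := by
        rw [mul_sum]
        refine sum_congr rfl fun s _ => ?_
        rw [← mul_sum, sum_comm]
    _ ≤ _ := by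
        refine sum_le_sum fun s _ => sum_le_sum fun i _ => ?_
        exact penalty_coord t0 G _ h0 ψ i s

/-! ### Selection -/

/-- **SEL, lower bound.** -/
theorem sel_lower {e : Fin k → Fin m} (he : Injective e) (t0 t1 : Fin m → Fin m → ℝ)
    (g : Fin m → Fin m → Fin m → Fin m → ℝ) {G B lam : ℝ} (hG : 0 < G)
    (hGB : 4 * B ≤ G) (hlam : lam ≤ B)
    (h0 : ∀ v : Fin m → ℝ, G * ∑ b ∈ univ.filter (fun b => b ∉ Set.range e), v b ^ 2 ≤
      ∑ a, ∑ b, t0 a b * v a * v b)
    (hV : ∀ ψ φ : MSt n m, |bform t1 g ψ φ| ≤ B * (Real.sqrt (nsq ψ) * Real.sqrt (nsq φ)))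
    (hl : ∀ φ : MSt n k, Anti φ → lam * nsq φ ≤
      hform (fun a b => t1 (e a) (e b)) (fun a b c d => g (e a) (e b) (e c) (e d)) φ)
    (ψ : MSt n m) (hψ : Anti ψ) :
    (lam - 2 * B ^ 2 / G) * nsq ψ ≤ hform (t0 + t1) g ψ := by
  set P := ext e (res e ψ) with hP
  set Q := outer e ψ with hQ
  have hPQ : ψ = P + Q := by rw [hQ, outer]; abel
  rw [hform_add_mat]
  have h1 := penalty he t0 hG.le h0 ψ
  have h2 : hform t1 g ψ = hform t1 g P + bform t1 g P Q + bform t1 g Q P + bform t1 g Q Q := by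
    rw [← bform_self]
    conv_lhs => rw [hPQ]
    rw [bform_add_left, bform_add_right, bform_add_right, bform_self]
    ring
  have h3 : lam * nsq P ≤ hform t1 g P := by
    rw [hP, hform_ext he, nsq_ext he]
    exact hl _ (anti_res hψ)
  have h4 : nsq ψ = nsq P + nsq Q := by rw [hP, nsq_ext he, nsq_split he ψ]
  set p := Real.sqrt (nsq P) with hp
  set q := Real.sqrt (nsq Q) with hq
  have hp0 : 0 ≤ p := Real.sqrt_nonneg _
  have hq0 : 0 ≤ q := Real.sqrt_nonneg _
  have hpp : nsq P = p ^ 2 := (Real.sq_sqrt (nsq_nonneg P)).symm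
  have hqq : nsq Q = q ^ 2 := (Real.sq_sqrt (nsq_nonneg Q)).symm
  have h5 := (abs_le.1 (hV P Q)).1
  have h6 := (abs_le.1 (hV Q P)).1
  have h7 := (abs_le.1 (hV Q Q)).1
  rw [← hp, ← hq] at h5 h6
  rw [← hq] at h7
  rw [h2, h4, hpp, hqq]
  rw [hpp] at h3
  rw [hqq] at h1
  have h8 : 2 * B ^ 2 / G * G = 2 * B ^ 2 := by field_simp
  have h9 : 0 ≤ 2 * B ^ 2 / G := by positivity
  -- `2 B p q ≤ (2 B² / G) p² + (G / 2) q²`
  have h10 : 2 * B * (p * q) ≤ 2 * B ^ 2 / G * p ^ 2 + G / 2 * q ^ 2 := by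
    have : 0 ≤ (2 * B * p - G * q) ^ 2 / (2 * G) := by positivity
    have h11 : (2 * B * p - G * q) ^ 2 / (2 * G) =
        2 * B ^ 2 / G * p ^ 2 + G / 2 * q ^ 2 - 2 * B * (p * q) := by
      field_simp
      ring
    linarith
  have h12 : 0 ≤ q ^ 2 := sq_nonneg q
  nlinarith [mul_nonneg h9 h12, mul_le_mul_of_nonneg_right hlam h12,
    mul_le_mul_of_nonneg_right hGB h12]

/-- **SEL, upper bound.** -/
theorem sel_upper {e : Fin k → Fin m} (he : Injective e) (t0 t1 : Fin m → Fin m → ℝ)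
    (g : Fin m → Fin m → Fin m → Fin m → ℝ) (h0 : ∀ a b, t0 (e a) (e b) = 0)
    (φ : MSt n k) (hφ : Anti φ) :
    Anti (ext e φ) ∧ nsq (ext e φ) = nsq φ ∧ hform (t0 + t1) g (ext e φ) =
      hform (fun a b => t1 (e a) (e b)) (fun a b c d => g (e a) (e b) (e c) (e d)) φ := by
  refine ⟨anti_ext hφ, nsq_ext he φ, ?_⟩
  rw [hform_ext he]
  congr 1
  funext a b
  simp [h0]

/-- **SEL, lower bound in two stages** (first `e₁`, e.g. the `l = J` multiplet of the shell, then
`e₂`, the ring orbitals inside it). -/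
theorem sel_lower_two {k₁ : ℕ} {e₁ : Fin k₁ → Fin m} {e₂ : Fin k → Fin k₁} (he₁ : Injective e₁)
    (he₂ : Injective e₂) (t00 t0 t1 : Fin m → Fin m → ℝ)
    (g : Fin m → Fin m → Fin m → Fin m → ℝ) {G₁ B₁ G₂ B₂ lam : ℝ} (hG₁ : 0 < G₁) (hG₂ : 0 < G₂)
    (hGB₁ : 4 * B₁ ≤ G₁) (hGB₂ : 4 * B₂ ≤ G₂) (hlam₁ : lam ≤ B₁) (hlam₂ : lam ≤ B₂)
    (h00 : ∀ v : Fin m → ℝ, G₁ * ∑ b ∈ univ.filter (fun b => b ∉ Set.range e₁), v b ^ 2 ≤
      ∑ a, ∑ b, t00 a b * v a * v b)
    (h0 : ∀ v : Fin k₁ → ℝ, G₂ * ∑ b ∈ univ.filter (fun b => b ∉ Set.range e₂), v b ^ 2 ≤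
      ∑ a, ∑ b, t0 (e₁ a) (e₁ b) * v a * v b)
    (hV₁ : ∀ ψ φ : MSt n m,
      |bform (t0 + t1) g ψ φ| ≤ B₁ * (Real.sqrt (nsq ψ) * Real.sqrt (nsq φ)))
    (hV₂ : ∀ ψ φ : MSt n k₁, |bform (fun a b => t1 (e₁ a) (e₁ b))
      (fun a b c d => g (e₁ a) (e₁ b) (e₁ c) (e₁ d)) ψ φ| ≤
        B₂ * (Real.sqrt (nsq ψ) * Real.sqrt (nsq φ)))
    (hl : ∀ φ : MSt n k, Anti φ → lam * nsq φ ≤
      hform (fun a b => t1 (e₁ (e₂ a)) (e₁ (e₂ b)))
        (fun a b c d => g (e₁ (e₂ a)) (e₁ (e₂ b)) (e₁ (e₂ c)) (e₁ (e₂ d))) φ)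
    (ψ : MSt n m) (hψ : Anti ψ) :
    (lam - 2 * B₂ ^ 2 / G₂ - 2 * B₁ ^ 2 / G₁) * nsq ψ ≤ hform (t00 + (t0 + t1)) g ψ := by
  refine sel_lower he₁ t00 (t0 + t1) g hG₁ hGB₁ ?_ h00 hV₁ ?_ ψ hψ
  · have : 0 ≤ 2 * B₂ ^ 2 / G₂ := by positivity
    linarith
  · intro φ hφ
    exact sel_lower he₂ (fun a b => t0 (e₁ a) (e₁ b)) (fun a b => t1 (e₁ a) (e₁ b))
      (fun a b c d => g (e₁ a) (e₁ b) (e₁ c) (e₁ d)) hG₂ hGB₂ hlam₂ h0 hV₂ hl φ hφ

/-! ### Operator norm bounds -/

/-- Cauchy–Schwarz for sums over the two index sets, one coordinate replaced. -/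
theorem cs_update (M : Fin m → Fin m → ℝ) {τ : ℝ} 
    (hM : ∀ u v : Fin m → ℝ, |∑ a, ∑ b, M a b * u a * v b| ≤
      τ * (Real.sqrt (∑ a, u a ^ 2) * Real.sqrt (∑ a, v a ^ 2)))
    (hτ : 0 ≤ τ) (ψ φ : MSt n m) (i : Fin n) :
    |∑ a : Fin n → Fin m, ∑ s : Fin n → Bool, ∑ b, M (a i) b * (ψ a s * φ (update a i b) s)| ≤
      τ * (Real.sqrt (nsq ψ) * Real.sqrt (nsq φ)) := by
  have e1 : ∀ F : (Fin n → Fin m) → ℝ, ∑ a, F a =
      ∑ r : {j // j ≠ i} → Fin m, ∑ c : Fin m, F ((Equiv.funSplitAt i (Fin m)).symm (c, r)) := by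
    intro F
    rw [← Equiv.sum_comp (Equiv.funSplitAt i (Fin m)).symm, Fintype.sum_prod_type, sum_comm]
  have e2 : ∀ (c : Fin m) (r : {j // j ≠ i} → Fin m),
      (Equiv.funSplitAt i (Fin m)).symm (c, r) i = c := by
    intro c r
    simp [Equiv.funSplitAt, Equiv.piSplitAt]
  have e3 : ∀ (c b : Fin m) (r : {j // j ≠ i} → Fin m),
      update ((Equiv.funSplitAt i (Fin m)).symm (c, r)) i b =
        (Equiv.funSplitAt i (Fin m)).symm (b, r) := by
    intro c b r
    funext j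
    by_cases h : j = i
    · subst h; simp [Equiv.funSplitAt, Equiv.piSplitAt]
    · simp [Equiv.funSplitAt, Equiv.piSplitAt, h]
  set X : (({j // j ≠ i} → Fin m) × (Fin n → Bool)) → ℝ := fun p =>
    ∑ c, ψ ((Equiv.funSplitAt i (Fin m)).symm (c, p.1)) p.2 ^ 2 with hX
  set Y : (({j // j ≠ i} → Fin m) × (Fin n → Bool)) → ℝ := fun p =>
    ∑ c, φ ((Equiv.funSplitAt i (Fin m)).symm (c, p.1)) p.2 ^ 2 with hY
  have hX0 : ∀ p, 0 ≤ X p := fun p => sum_nonneg fun _ _ => sq_nonneg _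
  have hY0 : ∀ p, 0 ≤ Y p := fun p => sum_nonneg fun _ _ => sq_nonneg _
  have hnψ : nsq ψ = ∑ p, X p := by
    rw [nsq, ip, e1, Fintype.sum_prod_type]
    refine sum_congr rfl fun r _ => ?_
    rw [sum_comm]
    exact sum_congr rfl fun s _ => sum_congr rfl fun c _ => by ring
  have hnφ : nsq φ = ∑ p, Y p := by
    rw [nsq, ip, e1, Fintype.sum_prod_type]
    refine sum_congr rfl fun r _ => ?_
    rw [sum_comm]
    exact sum_congr rfl fun s _ => sum_congr rfl fun c _ => by ring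
  have hs : (∑ a : Fin n → Fin m, ∑ s : Fin n → Bool, ∑ b,
      M (a i) b * (ψ a s * φ (update a i b) s)) =
      ∑ p : (({j // j ≠ i} → Fin m) × (Fin n → Bool)), ∑ a, ∑ b, M a b *
        ψ ((Equiv.funSplitAt i (Fin m)).symm (a, p.1)) p.2 *
        φ ((Equiv.funSplitAt i (Fin m)).symm (b, p.1)) p.2 := by
    rw [e1, Fintype.sum_prod_type]
    refine sum_congr rfl fun r _ => ?_
    rw [sum_comm]
    refine sum_congr rfl fun s _ => ?_
    refine sum_congr rfl fun c _ => ?_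
    refine sum_congr rfl fun b _ => ?_
    rw [e2, e3]
    ring
  rw [hs]
  calc |∑ p : (({j // j ≠ i} → Fin m) × (Fin n → Bool)), ∑ a, ∑ b, M a b *
        ψ ((Equiv.funSplitAt i (Fin m)).symm (a, p.1)) p.2 *
        φ ((Equiv.funSplitAt i (Fin m)).symm (b, p.1)) p.2|
      ≤ ∑ p, τ * (Real.sqrt (X p) * Real.sqrt (Y p)) := by
        refine (abs_sum_le_sum_abs _ _).trans (sum_le_sum fun p _ => ?_)
        exact hM (fun a => ψ ((Equiv.funSplitAt i (Fin m)).symm (a, p.1)) p.2)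
          (fun b => φ ((Equiv.funSplitAt i (Fin m)).symm (b, p.1)) p.2)
    _ = τ * ∑ p, Real.sqrt (X p) * Real.sqrt (Y p) := by rw [mul_sum]
    _ ≤ τ * (Real.sqrt (∑ p, X p) * Real.sqrt (∑ p, Y p)) := by
        refine mul_le_mul_of_nonneg_left ?_ hτ
        exact Real.sum_sqrt_mul_sqrt_le _ hX0 hY0
    _ = _ := by rw [hnψ, hnφ]

/-- Operator norm bound of the one-body operator. -/
theorem T1_bound (M : Fin m → Fin m → ℝ) {τ : ℝ} 
    (hM : ∀ u v : Fin m → ℝ, |∑ a, ∑ b, M a b * u a * v b| ≤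
      τ * (Real.sqrt (∑ a, u a ^ 2) * Real.sqrt (∑ a, v a ^ 2)))
    (hτ : 0 ≤ τ) (ψ φ : MSt n m) :
    |ip ψ (T1 M φ)| ≤ n * τ * (Real.sqrt (nsq ψ) * Real.sqrt (nsq φ)) := by
  have h : ip ψ (T1 M φ) = ∑ i : Fin n, ∑ a : Fin n → Fin m, ∑ s : Fin n → Bool, ∑ b,
      M (a i) b * (ψ a s * φ (update a i b) s) := by
    rw [sum_comm]
    simp only [ip, T1]
    refine sum_congr rfl fun a _ => ?_
    rw [sum_comm]
    refine sum_congr rfl fun s _ => ?_
    rw [mul_sum]
    refine sum_congr rfl fun i _ => ?_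
    rw [mul_sum]
    exact sum_congr rfl fun b _ => by ring
  rw [h]
  refine (abs_sum_le_sum_abs _ _).trans ?_
  refine (sum_le_sum fun i _ => cs_update M hM hτ ψ φ i).trans ?_
  rw [sum_const, card_univ, Fintype.card_fin, nsmul_eq_mul]
  rw [mul_assoc]

/-- Entry bound gives the operator bound `m * τ`. -/
theorem mat_bound (M : Fin m → Fin m → ℝ) {τ : ℝ} (hM : ∀ a b, |M a b| ≤ τ)
    (u v : Fin m → ℝ) : |∑ a, ∑ b, M a b * u a * v b| ≤
      m * τ * (Real.sqrt (∑ a, u a ^ 2) * Real.sqrt (∑ a, v a ^ 2)) := by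
  rcases Nat.eq_zero_or_pos m with rfl | hm
  · simp
  have hτ : 0 ≤ τ := (abs_nonneg _).trans (hM ⟨0, hm⟩ ⟨0, hm⟩)
  have h1 : |∑ a, ∑ b, M a b * u a * v b| ≤ τ * ((∑ a, |u a|) * ∑ b, |v b|) := by
    refine (abs_sum_le_sum_abs _ _).trans ?_
    rw [sum_mul, mul_sum]
    refine sum_le_sum fun a _ => (abs_sum_le_sum_abs _ _).trans ?_
    rw [mul_sum, mul_sum]
    refine sum_le_sum fun b _ => ?_
    rw [abs_mul, abs_mul, mul_assoc]
    exact mul_le_mul_of_nonneg_right (hM a b) (by positivity)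
  have h2 : ∀ w : Fin m → ℝ, ∑ a, |w a| ≤ Real.sqrt m * Real.sqrt (∑ a, w a ^ 2) := by
    intro w
    rw [← Real.sqrt_mul (Nat.cast_nonneg m)]
    apply Real.le_sqrt_of_sq_le
    have h3 := sq_sum_le_card_mul_sum_sq (s := (univ : Finset (Fin m))) (f := fun a => |w a|)
    rw [card_univ, Fintype.card_fin] at h3
    simpa only [sq_abs] using h3
  refine h1.trans ?_
  have h3 := mul_le_mul (h2 u) (h2 v) (sum_nonneg fun _ _ => abs_nonneg _)
    (by positivity)
  have h4 : Real.sqrt m * Real.sqrt m = m := Real.mul_self_sqrt (Nat.cast_nonneg m)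
  calc τ * ((∑ a, |u a|) * ∑ b, |v b|)
      ≤ τ * (Real.sqrt m * Real.sqrt (∑ a, u a ^ 2) * (Real.sqrt m * Real.sqrt (∑ a, v a ^ 2))) :=
        mul_le_mul_of_nonneg_left h3 hτ
    _ = (Real.sqrt m * Real.sqrt m) * τ *
        (Real.sqrt (∑ a, u a ^ 2) * Real.sqrt (∑ a, v a ^ 2)) := by ring
    _ = _ := by rw [h4]

/-- Operator norm bound of the two-body operator from an entry bound. -/
theorem T2_bound (g : Fin m → Fin m → Fin m → Fin m → ℝ) {γ : ℝ} (hγ : 0 ≤ γ)
    (hg : ∀ a b c d, |g a b c d| ≤ γ) (ψ φ : MSt n m) :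
    |ip ψ (T2 g φ)| ≤ n ^ 2 * m ^ 2 * γ / 2 * (Real.sqrt (nsq ψ) * Real.sqrt (nsq φ)) := by
  have h : ip ψ (T2 g φ) = (1 / 2) * ∑ i : Fin n, ∑ j ∈ univ.erase i,
      ∑ a : Fin n → Fin m, ∑ s : Fin n → Bool, ∑ c, ∑ d,
        g (a i) c (a j) d * (ψ a s * φ (update (update a i c) j d) s) := by
    have h0 : ip ψ (T2 g φ) = ∑ a : Fin n → Fin m, ∑ s : Fin n → Bool, (1 / 2) *
        ∑ i : Fin n, ∑ j ∈ univ.erase i, ∑ c, ∑ d,
        g (a i) c (a j) d * (ψ a s * φ (update (update a i c) j d) s) := by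
      simp only [ip, T2]
      refine sum_congr rfl fun a _ => sum_congr rfl fun s _ => ?_
      simp only [mul_sum]
      refine sum_congr rfl fun i _ => sum_congr rfl fun j _ => sum_congr rfl fun c _ =>
        sum_congr rfl fun d _ => by ring
    rw [h0]
    simp only [← mul_sum]
    congr 1
    rw [show (∑ a : Fin n → Fin m, ∑ s : Fin n → Bool, ∑ i : Fin n, ∑ j ∈ univ.erase i,
        ∑ c, ∑ d, g (a i) c (a j) d * (ψ a s * φ (update (update a i c) j d) s)) =
        ∑ p : (Fin n → Fin m) × (Fin n → Bool), ∑ i : Fin n, ∑ j ∈ univ.erase i,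
        ∑ c, ∑ d, g (p.1 i) c (p.1 j) d * (ψ p.1 p.2 *
          φ (update (update p.1 i c) j d) p.2) from by rw [Fintype.sum_prod_type]]
    rw [sum_comm]
    refine sum_congr rfl fun i _ => ?_
    rw [sum_comm]
    refine sum_congr rfl fun j _ => ?_
    rw [Fintype.sum_prod_type]
  have key : ∀ i : Fin n, ∀ j ∈ univ.erase i,
      |∑ a : Fin n → Fin m, ∑ s : Fin n → Bool, ∑ c, ∑ d,
        g (a i) c (a j) d * (ψ a s * φ (update (update a i c) j d) s)| ≤
      m ^ 2 * γ * (Real.sqrt (nsq ψ) * Real.sqrt (nsq φ)) := by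
    intro i j hj
    have hji : j ≠ i := (mem_erase.1 hj).1
    -- bound by absolute values
    set ψ' : MSt n m := fun a s => |ψ a s| with hψ'
    set φ' : MSt n m := fun a s => |φ a s| with hφ'
    set φ'' : MSt n m := fun a s => ∑ d, φ' (update a j d) s with hφ''
    have h1 : |∑ a : Fin n → Fin m, ∑ s : Fin n → Bool, ∑ c, ∑ d,
        g (a i) c (a j) d * (ψ a s * φ (update (update a i c) j d) s)| ≤
        γ * |∑ a : Fin n → Fin m, ∑ s : Fin n → Bool, ∑ c, (1 : ℝ) *
          (ψ' a s * φ'' (update a i c) s)| := by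
      have hnn : 0 ≤ ∑ a : Fin n → Fin m, ∑ s : Fin n → Bool, ∑ c, (1 : ℝ) *
          (ψ' a s * φ'' (update a i c) s) := by
        refine sum_nonneg fun a _ => sum_nonneg fun s _ => sum_nonneg fun c _ => ?_
        have : 0 ≤ φ'' (update a i c) s := sum_nonneg fun d _ => abs_nonneg _
        have h2 : 0 ≤ ψ' a s := abs_nonneg _
        positivity
      rw [abs_of_nonneg hnn, mul_sum]
      refine (abs_sum_le_sum_abs _ _).trans (sum_le_sum fun a _ => ?_)
      rw [mul_sum]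
      refine (abs_sum_le_sum_abs _ _).trans (sum_le_sum fun s _ => ?_)
      rw [mul_sum]
      refine (abs_sum_le_sum_abs _ _).trans (sum_le_sum fun c _ => ?_)
      refine (abs_sum_le_sum_abs _ _).trans ?_
      rw [hφ'']
      simp only [mul_sum, one_mul]
      refine sum_le_sum fun d _ => ?_
      rw [abs_mul, abs_mul]
      exact mul_le_mul_of_nonneg_right (hg _ _ _ _) (by positivity)
    refine h1.trans ?_
    have h2 := cs_update (n := n) (fun _ _ : Fin m => (1 : ℝ)) (τ := m * 1)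
      (mat_bound _ (fun _ _ => by simp)) (by positivity) ψ' φ'' i
    have h3 : nsq ψ' = nsq ψ := by
      simp only [nsq, ip, hψ', abs_mul_abs_self]
    have h4 : Real.sqrt (nsq φ'') ≤ m * Real.sqrt (nsq φ) := by
      -- `nsq φ'' = ⟪φ'', Σ_d φ'(update j d)⟫ ≤ m ‖φ''‖ ‖φ‖`
      have h5 := cs_update (n := n) (fun _ _ : Fin m => (1 : ℝ)) (τ := m * 1)
        (mat_bound _ (fun _ _ => by simp)) (by positivity) φ'' φ' j
      have h6 : (∑ a : Fin n → Fin m, ∑ s : Fin n → Bool, ∑ b, (1 : ℝ) *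
          (φ'' a s * φ' (update a j b) s)) = nsq φ'' := by
        rw [nsq, ip]
        refine sum_congr rfl fun a _ => sum_congr rfl fun s _ => ?_
        simp only [one_mul]
        rw [← mul_sum]
      have h7 : nsq φ' = nsq φ := by
        simp only [nsq, ip, hφ', abs_mul_abs_self]
      rw [h6, abs_of_nonneg (nsq_nonneg _), h7] at h5
      rcases eq_or_lt_of_le (Real.sqrt_nonneg (nsq φ'')) with h0 | h0
      · rw [← h0]; positivity
      · have h8 : Real.sqrt (nsq φ'') * Real.sqrt (nsq φ'') = nsq φ'' :=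
          Real.mul_self_sqrt (nsq_nonneg _)
        have h9 : Real.sqrt (nsq φ'') * Real.sqrt (nsq φ'') ≤
            Real.sqrt (nsq φ'') * (m * Real.sqrt (nsq φ)) := by
          rw [h8]
          refine h5.trans (le_of_eq (by ring))
        exact le_of_mul_le_mul_left h9 h0
    have h10 : 0 ≤ Real.sqrt (nsq ψ) := Real.sqrt_nonneg _
    calc γ * |∑ a : Fin n → Fin m, ∑ s : Fin n → Bool, ∑ c, (1 : ℝ) *
          (ψ' a s * φ'' (update a i c) s)|
        ≤ γ * (m * 1 * (Real.sqrt (nsq ψ') * Real.sqrt (nsq φ''))) :=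
          mul_le_mul_of_nonneg_left h2 hγ
      _ ≤ γ * (m * 1 * (Real.sqrt (nsq ψ) * (m * Real.sqrt (nsq φ)))) := by
          rw [h3]
          gcongr
      _ = _ := by ring
  rw [h, abs_mul, abs_of_nonneg (by norm_num : (0 : ℝ) ≤ 1 / 2)]
  have h11 : |∑ i : Fin n, ∑ j ∈ univ.erase i,
      ∑ a : Fin n → Fin m, ∑ s : Fin n → Bool, ∑ c, ∑ d,
        g (a i) c (a j) d * (ψ a s * φ (update (update a i c) j d) s)| ≤
      n * (n * (m ^ 2 * γ * (Real.sqrt (nsq ψ) * Real.sqrt (nsq φ)))) := by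
    refine (abs_sum_le_sum_abs _ _).trans ?_
    have hpos : 0 ≤ m ^ 2 * γ * (Real.sqrt (nsq ψ) * Real.sqrt (nsq φ)) := by positivity
    have : ∀ i ∈ (univ : Finset (Fin n)), |∑ j ∈ univ.erase i,
      ∑ a : Fin n → Fin m, ∑ s : Fin n → Bool, ∑ c, ∑ d,
        g (a i) c (a j) d * (ψ a s * φ (update (update a i c) j d) s)| ≤
        n * (m ^ 2 * γ * (Real.sqrt (nsq ψ) * Real.sqrt (nsq φ))) := by
      intro i _
      refine (abs_sum_le_sum_abs _ _).trans ?_
      refine (sum_le_sum (key i)).trans ?_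
      rw [sum_const, nsmul_eq_mul]
      refine mul_le_mul_of_nonneg_right ?_ hpos
      have := card_le_univ (univ.erase i : Finset (Fin n))
      rw [Fintype.card_fin] at this
      exact_mod_cast this
    refine (sum_le_sum this).trans ?_
    rw [sum_const, card_univ, Fintype.card_fin, nsmul_eq_mul]
  calc (1 : ℝ) / 2 * _ ≤ 1 / 2 *
        (n * (n * (m ^ 2 * γ * (Real.sqrt (nsq ψ) * Real.sqrt (nsq φ))))) :=
        mul_le_mul_of_nonneg_left h11 (by norm_num)
    _ = _ := by ring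

/-- Entry bounds give the norm bound of the form. -/
theorem bform_bound (t : Fin m → Fin m → ℝ) (g : Fin m → Fin m → Fin m → Fin m → ℝ)
    {τ γ : ℝ} (hτ : 0 ≤ τ) (hγ : 0 ≤ γ) (ht : ∀ a b, |t a b| ≤ τ)
    (hg : ∀ a b c d, |g a b c d| ≤ γ) (ψ φ : MSt n m) :
    |bform t g ψ φ| ≤ (n * m * τ + n ^ 2 * m ^ 2 * γ / 2) *
      (Real.sqrt (nsq ψ) * Real.sqrt (nsq φ)) := by
  rw [bform]
  refine (abs_add_le _ _).trans ?_
  have h1 := T1_bound (n := n) t (mat_bound t ht) (by positivity) ψ φ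
  have h2 := T2_bound g hγ hg ψ φ
  calc _ ≤ _ := add_le_add h1 h2
    _ = _ := by ring

/-- Perturbation of the integrals. -/
theorem hform_perturb (t t' : Fin m → Fin m → ℝ) (g g' : Fin m → Fin m → Fin m → Fin m → ℝ)
    {τ γ : ℝ} (hτ : 0 ≤ τ) (hγ : 0 ≤ γ) (ht : ∀ a b, |t a b - t' a b| ≤ τ)
    (hg : ∀ a b c d, |g a b c d - g' a b c d| ≤ γ) (ψ : MSt n m) :
    |hform t g ψ - hform t' g' ψ| ≤ (n * m * τ + n ^ 2 * m ^ 2 * γ / 2) * nsq ψ := by
  have h := bform_bound (n := n) (fun a b => t a b - t' a b)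
    (fun a b c d => g a b c d - g' a b c d) hτ hγ ht hg ψ ψ
  rw [Real.mul_self_sqrt (nsq_nonneg _)] at h
  refine le_trans (le_of_eq ?_) h
  congr 1
  rw [bform, hform, hform]
  have h1 : T1 (fun a b => t a b - t' a b) ψ = T1 t ψ - T1 t' ψ := by
    funext a s
    simp only [T1, Pi.sub_apply, sub_mul, sum_sub_distrib]
  have h2 : T2 (fun a b c d => g a b c d - g' a b c d) ψ = T2 g ψ - T2 g' ψ := by
    funext a s
    simp only [T2, Pi.sub_apply, sub_mul, sum_sub_distrib, mul_sub]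
  have h3 : ∀ x y z : MSt n m, ip x (y - z) = ip x y - ip x z := by
    intro x y z
    simp only [ip, Pi.sub_apply, mul_sub, sum_sub_distrib]
  rw [h1, h2, h3, h3]
  ring

end

end Vale.Agent.P370.H765
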